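import Vale.Agent.P246.T.Fin
import Vale.Agent.P246.T.YD

/-! # P246-Dis, block D5a: every 2-cycle of a simply connected space is a sphere -/

open Topology Metric Set Vale.Agent.P246.T

namespace Vale.Agent.P246.Dis.H105

/-- the trivial action of the trivial group -/
@[instance_reducible] def trivAct (E : Type) : MulAction Unit E where
  smul _ x := x
  one_smul _ := rfl
  mul_smul _ _ _ := rfl

theorem exists_sphere {E : Type} [TopologicalSpace E] [SimplyConnectedSpace E] (e : E)
    (z : Ch 2 E) (hz : bd 1 z = 0) :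
    ∃ τ : C(Dk 2, E), (∀ y : Dk 2, ‖(y : Fin 2 → ℝ)‖ = 1 → τ y = e) ∧
      ∃ t : Ch 3 E, push τ 2 zeta2 = z + bd 2 t := by
  let _ : MulAction Unit E := trivAct E
  have : ContinuousConstSMul Unit E := ⟨fun _ => continuous_id⟩
  have h0 : LftS ({e} : Set E) 0 := RH.lft0 (singleton_nonempty e)
  have h1 : LftS ({e} : Set E) 1 := RH.lft1 (isPathConnected_singleton e)
  obtain ⟨L, hL, t, ht⟩ := YD.hur HC.main fund e h0 h1 z hz
  have hδ : BdryWord (fun i : Fin 0 => (i.elim0 : Unit)) (e := e) (fun i => i.elim0) []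
      (ContinuousMap.const (Dk 2) e) := by
    intro y _
    refine ⟨fun _ => ?_, fun _ => rfl⟩
    rfl
  obtain ⟨δ', hδ', t', ht'⟩ := YD.add_list
    (fun x _ α w hw δ hδ τ hτ => YDc.add_sphere x α w hw δ hδ τ hτ)
    (fun τ hτ => YDc.swap τ hτ) (fun i : Fin 0 => (i.elim0 : Unit)) (e := e)
    (fun i => i.elim0) [] rfl L hL (ContinuousMap.const (Dk 2) e) hδ
  refine ⟨δ', fun y hy => ?_, t' - t, ?_⟩
  · by_cases h : (y : Fin 2 → ℝ) 0 = 1
    · rw [(hδ' y hy).1 h]
      rfl
    · exact (hδ' y hy).2 h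
  · have hc : push (ContinuousMap.const (Dk 2) e) 2 zeta2 = 0 := by
      rw [zeta2, map_sub, push_single, push_single, sub_eq_zero, ContinuousMap.const_comp,
        ContinuousMap.const_comp]
    rw [ht', hc, ht, map_sub]
    abel

end Vale.Agent.P246.Dis.H105
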