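import Vale.Agent.P246.Dis.H105.D0
import Vale.Agent.P246.Dis.H105.Sphere
import Vale.Agent.P246.Dis.H285.Degree
import Vale.Agent.P246.Dis.H285.Fill
import Vale.Agent.P246.Dis.H285.PiOne
import Vale.Agent.P246.Dis.H316.Att3
import Vale.Agent.P246.Dis.H316.CW3
import Vale.Agent.P246.Dis.H316.SC3
import Vale.Agent.P246.Dis.H316.Tr3
import Vale.Agent.P246.Dis.H956.Pres

/-! # P246-Dis, block D: the complex of a presentation and of one 3-cell

For a finite presentation `Pr` of `G` and an element `β` of the kernel of the second Fox map which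
is part of a basis, there is a finite complex with one 3-cell which satisfies the D(2) condition. -/

open Topology Metric Set Vale.Agent.P246 Vale.Agent.P246.T

namespace Vale.Agent.P246.Dis.H105

/-- D5b: extension of a sphere to a ball, in a contractible space -/
def SpecExt : Prop := ∀ (E : Type) [TopologicalSpace E] [ContractibleSpace E] (e : E)
  (τ : C(Dk 2, E)), (∀ y : Dk 2, ‖(y : Fin 2 → ℝ)‖ = 1 → τ y = e) →
  ∃ δ : C(Dk 3, E), (∀ y, δ (FM.Ph 2 y) = τ y) ∧ ∀ z ∈ FM.J 2, δ z = e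

theorem wval_rel {G : Type} [Group G] (Pr : FinPresentation G) (j : Fin Pr.rels) :
    wval Pr.x (Pr.r j).toWord = 1 := by
  have h1 : Pr.r j ∈ (FreeGroup.lift Pr.x).ker := by
    rw [Pr.ker_eq]; exact Subgroup.subset_normalClosure ⟨j, rfl⟩
  have h2 : ∀ w : List (Fin Pr.gens × Bool), wval Pr.x w = FreeGroup.lift Pr.x (FreeGroup.mk w) := by
    intro w
    induction w with
    | nil => rw [wval]; exact (map_one (FreeGroup.lift Pr.x)).symm
    | cons l w ih =>
      rw [wval, ih, lval]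
      simp only [FreeGroup.lift_mk, List.map_cons, List.prod_cons]
      cases l.2 <;> rfl
  rw [h2, FreeGroup.mk_toWord]
  exact h1

/-- The 3-cell, in the covering: a ball whose boundary is the 2-cycle of `β`. -/
theorem exists_ball (hext : SpecExt) {G X E : Type} [Group G] [TopologicalSpace X] [T2Space X]
    [TopologicalSpace E] [ContractibleSpace E] [MulAction G E] [ContinuousConstSMul G E]
    {p : C(E, X)} (hp : IsQuotientCoveringMap p G) {Pr : FinPresentation G} (c : PresCx Pr p)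
    (hc : c.Good) (W : WordCor) (β : Fin Pr.rels → ZG G) (hβ : fox2 Pr β = 0)
    {ζ : Ch 3 (Dk 3)} (hζ : bd 2 ζ - push (FM.Ph 2) 2 zeta2 ∈ Con (FM.J 2) 2) :
    ∃ δ : C(Dk 3, E), (∀ z : Dk 3, ‖(z : Fin 3 → ℝ)‖ = 1 → p (δ z) ∈ c.Y) ∧
      ∃ t ∈ Con (p ⁻¹' c.Y) 3,
        bd 2 (push δ 3 ζ) = (lmap (fun j => SC.mk G (c.zface W j)) β).un + bd 2 t := by
  have hsc : SimplyConnectedSpace (p ⁻¹' c.Y) := YP.main G X E p hp Pr c hc
  have hQ := YH.main MS.main CL.main fund W G X E p hp Pr c hc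
  have hcyc : bd 1 (lmap (fun j => SC.mk G (c.zface W j)) β).un = 0 := by
    have h := hQ.c2 β
    rw [hβ, map_zero] at h
    exact congrArg SC.un h
  obtain ⟨b, hb⟩ := BS.exists_push _ (hQ.m2 β)
  have hb0 : bd 1 b = 0 := by
    refine BS.push_sub_injective (p ⁻¹' c.Y) 1 ?_
    rw [← push_bd, hb, hcyc, map_zero]
  have heY : c.e ∈ p ⁻¹' c.Y := Or.inl (Or.inl rfl)
  obtain ⟨τ, hτ, t, ht⟩ := exists_sphere (⟨c.e, heY⟩ : (p ⁻¹' c.Y : Set E)) b hb0
  have hτ' : ∀ y : Dk 2, ‖(y : Fin 2 → ℝ)‖ = 1 → ((BS.sub (p ⁻¹' c.Y)).comp τ) y = c.e := by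
    intro y hy
    rw [ContinuousMap.comp_apply, hτ y hy]
    rfl
  obtain ⟨δ, h1, h2⟩ := hext E c.e _ hτ'
  refine ⟨δ, fun z hz => ?_, push (BS.sub (p ⁻¹' c.Y)) 3 t, ?_, ?_⟩
  · have hz' : z ∈ FM.J 2 ∪ range (FM.Ph 2) := by
      rw [← (FM.attach (n := 2)).eq]
      exact hz
    rcases hz' with h | ⟨y, rfl⟩
    · rw [h2 z h]
      exact heY
    · rw [h1 y]
      exact (τ y).2
  · refine push_mem (A := univ) (fun y _ => y.2) ?_
    rw [T.Con, Finsupp.mem_supported]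
    exact fun σ _ y => mem_univ _
  · rw [H285.bd_ball _ hτ' δ h1 h2 H285.isFund_zeta2 hζ, push_comp, ht, map_add, hb, push_bd]

theorem blockD_of (hext : SpecExt) (G : Type) [Group G] (Pr : FinPresentation G)
    (β : Fin Pr.rels → ZG G) (lam : (Fin Pr.rels → ZG G) →ₗ[ZG G] ZG G) (hβ : fox2 Pr β = 0)
    (hlam : lam β = 1) :
    ∃ (B : Type) (_ : TopologicalSpace B) (_ : T2Space B) (_ : ConnectedSpace B)
      (_ : CWComplex (univ : Set B)), CWComplex.Finite (univ : Set B) ∧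
      (∀ x : B, Nonempty (FundamentalGroup B x ≃* G)) ∧ D2Condition B ∧
      Nonempty (RelCWComplex.cell (univ : Set B) 0 ≃ Fin 1) ∧
      Nonempty (RelCWComplex.cell (univ : Set B) 1 ≃ Fin Pr.gens) ∧
      Nonempty (RelCWComplex.cell (univ : Set B) 2 ≃ Fin Pr.rels) ∧
      Nonempty (RelCWComplex.cell (univ : Set B) 3 ≃ Fin 1) ∧
      ∀ m > 3, IsEmpty (RelCWComplex.cell (univ : Set B) m) := by
  obtain ⟨X, E, _, _, _, _, _, _, p, hp, hcon⟩ := exists_ambient G
  obtain ⟨W⟩ := WC.main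
  obtain ⟨ζ, hζf, hζ⟩ := H285.exists_zeta3'
  -- the presentation complex
  obtain ⟨e⟩ : Nonempty E := inferInstance
  have hα : ∀ i, Nonempty (Path e (Pr.x i • e)) := fun i => PathConnectedSpace.joined _ _
  let α : ∀ i, Path e (Pr.x i • e) := fun i => (hα i).some
  choose δ2 hδ2 using fun j => YD.exists_disc Pr.x α (Pr.r j).toWord (wval_rel Pr j)
  obtain ⟨y, hy, -, -, -⟩ := YC.main G X E p hp Pr e α δ2 hδ2
  obtain ⟨hp1, -, -, -⟩ := EWb.main G X E p hp Pr.gens Pr.rels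
  have hcon1 : ContractibleSpace (EW G E Pr.gens Pr.rels) :=
    (EWb.heq E (WW Pr.gens Pr.rels)).symm.contractibleSpace
  obtain ⟨δ, hδ, t, ht, hbd⟩ := exists_ball hext hp1 y hy W β hβ hζ
  -- the 3-cell
  obtain ⟨c, Ψ, hc, hce, hca, hcb, -, hΨ, hatt⟩ := H316.d1 G (X × WW Pr.gens Pr.rels)
    (EW G E Pr.gens Pr.rels) (pW G Pr.gens Pr.rels p) Pr y hy δ hδ
  obtain ⟨t', ht', hbd'⟩ := H316.d1b W G (X × WW Pr.gens Pr.rels)
    (EW G E Pr.gens Pr.rels) (pW G Pr.gens Pr.rels p) Pr y c hce hca hcb δ Ψ hΨ ζ hζf.cyc β t ht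
    hbd
  obtain ⟨hp2, -, -, -⟩ := EWb.main G _ _ (pW G Pr.gens Pr.rels p) hp1 0 2
  set B : Set ((X × WW Pr.gens Pr.rels) × WW 0 2) :=
    c.Y ∪ range ((pW G 0 2 (pW G Pr.gens Pr.rels p)).comp Ψ) with hB
  obtain ⟨hBb, hpc, hcpt, hcw, hfin, h0, h1, h2, h3, h4⟩ := H316.d2 G _ _
    (pW G 0 2 (pW G Pr.gens Pr.rels p)) hp2 Pr c hc B _ hatt
  have hsc0 : SimplyConnectedSpace (pW G 0 2 (pW G Pr.gens Pr.rels p) ⁻¹' c.Y) :=
    YP.main G _ _ _ hp2 Pr c hc
  have hsc : SimplyConnectedSpace (pW G 0 2 (pW G Pr.gens Pr.rels p) ⁻¹' B) :=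
    H316.d3 G _ _ _ hp2 3 (by norm_num) c.Y B _ Ψ (YH.isClosed_Y2 c _) hatt (fun _ => rfl) hsc0
  have hD2 : D2Condition B := H956.d2_of_pres hp2 c hc W hatt (fun _ => rfl) hζf β t' ht' hbd'
    lam hlam
  refine ⟨B, inferInstance, inferInstance, inferInstance, hcw, hfin, fun x => ?_, hD2, h0, h1, h2,
    h3, h4⟩
  let _ := H956.resAct hp2 B
  exact H285.pi1_equiv (H956.res_isQuotientCoveringMap hp2 B) x

/-- BLOCK D. If an element `β` of the kernel of the second Fox map of a finite presentation of `G`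
is part of a basis, there is a finite connected 3-complex with one 3-cell with fundamental group
`G` which satisfies the D(2) condition; it has `1`, `Pr.gens`, `Pr.rels`, `1` cells. -/
theorem blockD (G : Type) [Group G] (Pr : FinPresentation G)
    (β : Fin Pr.rels → ZG G) (lam : (Fin Pr.rels → ZG G) →ₗ[ZG G] ZG G) (hβ : fox2 Pr β = 0)
    (hlam : lam β = 1) :
    ∃ (B : Type) (_ : TopologicalSpace B) (_ : T2Space B) (_ : ConnectedSpace B)
      (_ : CWComplex (univ : Set B)), CWComplex.Finite (univ : Set B) ∧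
      (∀ x : B, Nonempty (FundamentalGroup B x ≃* G)) ∧ D2Condition B ∧
      Nonempty (RelCWComplex.cell (univ : Set B) 0 ≃ Fin 1) ∧
      Nonempty (RelCWComplex.cell (univ : Set B) 1 ≃ Fin Pr.gens) ∧
      Nonempty (RelCWComplex.cell (univ : Set B) 2 ≃ Fin Pr.rels) ∧
      Nonempty (RelCWComplex.cell (univ : Set B) 3 ≃ Fin 1) ∧
      ∀ m > 3, IsEmpty (RelCWComplex.cell (univ : Set B) m) :=
  blockD_of (fun _ _ _ e τ hτ => H285.exists_fill e τ hτ) G Pr β lam hβ hlam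

end Vale.Agent.P246.Dis.H105
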