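import Vale.Agent.P246.T.Spec2
import Mathlib.MeasureTheory.Measure.Lebesgue.Basic

/-! # P246, D(2) disproof, block D0: a Hausdorff contractible space with a free action

`E0 T` is the space of all functions `[0, 1) → T`, with the (outer) measure of the set where two
functions differ as distance, made Hausdorff. It is contractible, and `T` acts freely by
isometries, such that the projection to the Hausdorff quotient is a covering. -/

open Set Topology

namespace Vale.Agent.P246.Dis.H105

open Vale.Agent.P246.T

/-- The space of all functions from `[0, 1)` to `T`. -/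
def EE (T : Type) : Type := Ico (0 : ℝ) 1 → T

namespace EE

variable {T : Type}

theorem vol_ne_top (s : Set (Ico (0 : ℝ) 1)) :
    MeasureTheory.volume ((Subtype.val : Ico (0 : ℝ) 1 → ℝ) '' s) ≠ ⊤ := by
  refine ne_top_of_le_ne_top (b := MeasureTheory.volume (Ico (0 : ℝ) 1)) (by simp)
    (MeasureTheory.measure_mono ?_)
  rintro _ ⟨x, -, rfl⟩
  exact x.2

/-- Distance: the (outer) measure of the set where the functions differ. -/
noncomputable instance : PseudoMetricSpace (EE T) where
  dist f g := (MeasureTheory.volume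
    ((Subtype.val : Ico (0 : ℝ) 1 → ℝ) '' {x | f x ≠ g x})).toReal
  dist_self f := by simp
  dist_comm f g := by simp only [ne_comm]
  dist_triangle f g h := by
    rw [← ENNReal.toReal_add (vol_ne_top _) (vol_ne_top _)]
    refine ENNReal.toReal_mono (ENNReal.add_ne_top.2 ⟨vol_ne_top _, vol_ne_top _⟩) ?_
    refine le_trans (MeasureTheory.measure_mono ?_) (MeasureTheory.measure_union_le _ _)
    rw [← image_union]
    refine image_mono ?_
    intro x hx
    by_contra hcon
    simp only [mem_union, mem_ofPred_eq, not_or, not_not] at hcon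
    exact hx (hcon.1.trans hcon.2)

theorem dist_def (f g : EE T) :
    dist f g = (MeasureTheory.volume
      ((Subtype.val : Ico (0 : ℝ) 1 → ℝ) '' {x | f x ≠ g x})).toReal := rfl

/-- The key estimate: two functions which agree up to an interval of length `|s - s'|` and the
difference of `f` and `g`. -/
theorem dist_le_of_subset {T' : Type} (a b : EE T') (f g : EE T) (s s' : ℝ)
    (h : ∀ x : Ico (0 : ℝ) 1, a x ≠ b x → (x : ℝ) ∈ uIcc s s' ∨ f x ≠ g x) :
    dist a b ≤ |s - s'| + dist f g := by
  have h1 : ((Subtype.val : Ico (0 : ℝ) 1 → ℝ) '' {x | a x ≠ b x}) ⊆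
      uIcc s s' ∪ ((Subtype.val : Ico (0 : ℝ) 1 → ℝ) '' {x | f x ≠ g x}) := by
    rintro _ ⟨x, hx, rfl⟩
    rcases h x hx with h2 | h2
    · exact Or.inl h2
    · exact Or.inr ⟨x, h2, rfl⟩
  have h2 : MeasureTheory.volume ((Subtype.val : Ico (0 : ℝ) 1 → ℝ) '' {x | a x ≠ b x}) ≤
      MeasureTheory.volume (uIcc s s') +
      MeasureTheory.volume ((Subtype.val : Ico (0 : ℝ) 1 → ℝ) '' {x | f x ≠ g x}) :=
    (MeasureTheory.measure_mono h1).trans (MeasureTheory.measure_union_le _ _)
  rw [Real.volume_interval] at h2
  rw [dist_def, dist_def]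
  have h3 := ENNReal.toReal_mono
    (ENNReal.add_ne_top.2 ⟨ENNReal.ofReal_ne_top, vol_ne_top _⟩) h2
  rw [ENNReal.toReal_add ENNReal.ofReal_ne_top (vol_ne_top _),
    ENNReal.toReal_ofReal (abs_nonneg _)] at h3
  rw [abs_sub_comm s s']
  exact h3

variable [Group T]

instance : MulAction T (EE T) where
  smul t f := fun x => t * f x
  one_smul f := by funext x; exact one_mul _
  mul_smul a b f := by funext x; exact mul_assoc _ _ _

theorem smul_apply (t : T) (f : EE T) (x : Ico (0 : ℝ) 1) : (t • f) x = t * f x := rfl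

/-- the constant function `1` -/
def one (T : Type) [Group T] : EE T := fun _ => 1

/-- the standard contraction: `con 0 f = f` and `con 1 f = one T`. -/
noncomputable def con (s : I) (f : EE T) : EE T := fun x => if (x : ℝ) < (s : ℝ) then 1 else f x

theorem dist_smul_smul (t : T) (f g : EE T) : dist (t • f) (t • g) = dist f g := by
  rw [dist_def, dist_def]
  congr 3
  ext x
  simp only [mem_ofPred_eq, smul_apply, ne_eq, mul_right_inj]

instance : ContinuousConstSMul T (EE T) where
  continuous_const_smul t := (Isometry.of_dist_eq (dist_smul_smul t)).continuous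

theorem dist_smul_self {t : T} (ht : t ≠ 1) (f : EE T) : dist (t • f) f = 1 := by
  rw [dist_def]
  have h : {x | (t • f) x ≠ f x} = univ := by
    ext x
    simp only [mem_ofPred_eq, smul_apply, mem_univ, iff_true]
    intro h
    exact ht (mul_eq_right.1 h)
  rw [h, image_univ, Subtype.range_coe]
  simp only [Real.volume_Ico, sub_zero, ENNReal.ofReal_one, ENNReal.toReal_one]

theorem dist_con_con (s s' : I) (f g : EE T) :
    dist (con s f) (con s' g) ≤ |(s : ℝ) - s'| + dist f g := by
  apply dist_le_of_subset
  intro x hx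
  by_cases h1 : (x : ℝ) < s
  · by_cases h2 : (x : ℝ) < s'
    · exact absurd (by simp only [con, if_pos h1, if_pos h2]) hx
    · left
      rw [mem_uIcc]
      exact Or.inr ⟨not_lt.1 h2, h1.le⟩
  · by_cases h2 : (x : ℝ) < s'
    · left
      rw [mem_uIcc]
      exact Or.inl ⟨not_lt.1 h1, h2.le⟩
    · right
      simpa only [con, if_neg h1, if_neg h2] using hx

theorem con_zero (f : EE T) : con 0 f = f := by
  funext x
  exact if_neg (not_lt.2 x.2.1)

theorem con_one (f : EE T) : con 1 f = one T := by
  funext x
  exact if_pos x.2.2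

theorem continuous_con : Continuous fun p : I × EE T => con p.1 p.2 := by
  have h : LipschitzWith 2 (fun p : I × EE T => con p.1 p.2) := by
    apply LipschitzWith.of_dist_le_mul
    rintro ⟨s, f⟩ ⟨s', g⟩
    refine (dist_con_con s s' f g).trans ?_
    rw [Prod.dist_eq]
    have h1 : |(s : ℝ) - s'| ≤ max (dist s s') (dist f g) := le_max_left _ _
    have h2 : dist f g ≤ max (dist s s') (dist f g) := le_max_right _ _
    have h3 : ((2 : NNReal) : ℝ) = 2 := rfl
    rw [h3]
    linarith
  exact h.continuous

end EE

/-- The Hausdorff version of `EE T`. -/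
abbrev E0 (T : Type) : Type := SeparationQuotient (EE T)

namespace E0

variable {T : Type} [Group T]

theorem dist_smul_smul (t : T) (x y : E0 T) : dist (t • x) (t • y) = dist x y := by
  obtain ⟨f, rfl⟩ := SeparationQuotient.surjective_mk x
  obtain ⟨g, rfl⟩ := SeparationQuotient.surjective_mk y
  exact EE.dist_smul_smul t f g

theorem dist_smul_self {t : T} (ht : t ≠ 1) (x : E0 T) : dist (t • x) x = 1 := by
  obtain ⟨f, rfl⟩ := SeparationQuotient.surjective_mk x
  exact EE.dist_smul_self ht f

instance : ContinuousConstSMul T (E0 T) where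
  continuous_const_smul t := (Isometry.of_dist_eq (dist_smul_smul t)).continuous

theorem disjoint_ball (x : E0 T) :
    ∃ U ∈ 𝓝 x, ∀ t : T, ((t • ·) '' U ∩ U).Nonempty → t = 1 := by
  refine ⟨Metric.ball x (1 / 2), Metric.ball_mem_nhds x (by norm_num), ?_⟩
  rintro t ⟨_, ⟨g, hg, rfl⟩, hg'⟩
  by_contra ht
  have h1 := dist_smul_self ht g
  have h2 := dist_triangle (t • g) x g
  rw [Metric.mem_ball] at hg hg'
  rw [dist_comm x g] at h2
  simp only at hg'
  linarith

variable (T) in
/-- The base. -/
abbrev X0 : Type := MulAction.orbitRel.Quotient T (E0 T)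

variable (T) in
/-- The covering. -/
noncomputable def p0 : C(E0 T, X0 T) := ⟨Quotient.mk _, continuous_quotient_mk'⟩

theorem isQuotientCoveringMap_p0 : IsQuotientCoveringMap (p0 T) T where
  toIsQuotientMap := isQuotientMap_quotient_mk'
  continuous_const_smul := continuous_const_smul
  apply_eq_iff_mem_orbit := Quotient.eq''
  disjoint := disjoint_ball

/-- two points with small distance to each orbit have the same orbit -/
theorem exists_pos (x y : E0 T) (h : p0 T x ≠ p0 T y) : ∃ δ > 0, ∀ t : T, δ ≤ dist x (t • y) := by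
  have hne : ∀ t : T, x ≠ t • y := by
    intro t ht
    apply h
    rw [isQuotientCoveringMap_p0.apply_eq_iff_mem_orbit]
    exact ⟨t, ht.symm⟩
  by_cases hc : ∃ t : T, dist x (t • y) < 1 / 2
  · obtain ⟨t, ht⟩ := hc
    refine ⟨dist x (t • y), dist_pos.2 (hne t), fun s => ?_⟩
    by_cases hs : s = t
    · rw [hs]
    · have h1 : dist (s • y) (t • y) = 1 := by
        have h2 : s • y = (s * t⁻¹) • (t • y) := by rw [smul_smul]; congr 1; group
        rw [h2]
        refine dist_smul_self ?_ _
        intro h3
        exact hs (mul_inv_eq_one.1 h3)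
      have h3 := dist_triangle (s • y) x (t • y)
      rw [dist_comm (s • y) x] at h3
      linarith
  · push Not at hc
    exact ⟨1 / 2, by norm_num, hc⟩

instance : T2Space (X0 T) := by
  refine ⟨fun a b hab => ?_⟩
  obtain ⟨x, rfl⟩ := isQuotientCoveringMap_p0.surjective a
  obtain ⟨y, rfl⟩ := isQuotientCoveringMap_p0.surjective b
  obtain ⟨δ, hδ, h⟩ := exists_pos x y hab
  have hop : ∀ U : Set (E0 T), IsOpen U → IsOpen (p0 T '' U) := fun U hU =>
    isQuotientCoveringMap_p0.isCoveringMap.isLocalHomeomorph.isOpenMap U hU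
  refine ⟨p0 T '' Metric.ball x (δ / 2), p0 T '' Metric.ball y (δ / 2), hop _ Metric.isOpen_ball,
    hop _ Metric.isOpen_ball, ⟨x, Metric.mem_ball_self (by linarith), rfl⟩,
    ⟨y, Metric.mem_ball_self (by linarith), rfl⟩, ?_⟩
  rw [Set.disjoint_left]
  rintro _ ⟨u, hu, rfl⟩ ⟨v, hv, huv⟩
  rw [isQuotientCoveringMap_p0.apply_eq_iff_mem_orbit] at huv
  obtain ⟨t, ht⟩ := huv
  have h1 : t • u = v := ht
  have h2 := h t⁻¹
  have h3 : dist u (t⁻¹ • y) < δ / 2 := by
    rw [← dist_smul_smul t, h1, smul_smul, mul_inv_cancel, one_smul]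
    exact Metric.mem_ball.1 hv
  have h4 := dist_triangle x u (t⁻¹ • y)
  rw [Metric.mem_ball, dist_comm] at hu
  linarith

/-- the contraction -/
noncomputable def conq (T : Type) [Group T] : I × E0 T → E0 T := fun q =>
  SeparationQuotient.lift (fun f : EE T => (SeparationQuotient.mk (EE.con q.1 f) : E0 T))
    (fun f g hfg => by
      rw [SeparationQuotient.mk_eq_mk, Metric.inseparable_iff]
      rw [Metric.inseparable_iff] at hfg
      have h := EE.dist_con_con q.1 q.1 f g
      rw [hfg, sub_self, abs_zero, zero_add] at h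
      exact le_antisymm h dist_nonneg) q.2

theorem conq_mk (s : I) (f : EE T) :
    conq T (s, SeparationQuotient.mk f) = SeparationQuotient.mk (EE.con s f) := rfl

theorem continuous_conq : Continuous (conq T) := by
  have h : LipschitzWith 2 (conq T) := by
    apply LipschitzWith.of_dist_le_mul
    rintro ⟨s, x⟩ ⟨s', y⟩
    obtain ⟨f, rfl⟩ := SeparationQuotient.surjective_mk x
    obtain ⟨g, rfl⟩ := SeparationQuotient.surjective_mk y
    rw [conq_mk, conq_mk, SeparationQuotient.dist_mk]
    refine (EE.dist_con_con s s' f g).trans ?_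
    rw [Prod.dist_eq, SeparationQuotient.dist_mk]
    have h1 : |(s : ℝ) - s'| ≤ max (dist s s') (dist f g) := le_max_left _ _
    have h2 : dist f g ≤ max (dist s s') (dist f g) := le_max_right _ _
    have h3 : ((2 : NNReal) : ℝ) = 2 := rfl
    rw [h3]
    linarith
  exact h.continuous

instance : ContractibleSpace (E0 T) := by
  rw [contractible_iff_id_nullhomotopic]
  refine ⟨SeparationQuotient.mk (EE.one T), ⟨⟨⟨conq T, continuous_conq⟩, ?_, ?_⟩⟩⟩
  · intro x
    obtain ⟨f, rfl⟩ := SeparationQuotient.surjective_mk x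
    change SeparationQuotient.mk (EE.con 0 f) = _
    rw [EE.con_zero]
    rfl
  · intro x
    obtain ⟨f, rfl⟩ := SeparationQuotient.surjective_mk x
    change SeparationQuotient.mk (EE.con 1 f) = _
    rw [EE.con_one]
    rfl

end E0

/-- BLOCK D0: every group acts freely on a contractible Hausdorff space, with a Hausdorff
quotient. -/
theorem exists_ambient (G : Type) [Group G] :
    ∃ (X E : Type) (_ : TopologicalSpace X) (_ : T2Space X) (_ : TopologicalSpace E)
      (_ : T2Space E) (_ : MulAction G E) (_ : ContinuousConstSMul G E) (p : C(E, X)),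
      IsQuotientCoveringMap p G ∧ ContractibleSpace E :=
  ⟨E0.X0 G, E0 G, inferInstance, inferInstance, inferInstance, inferInstance, inferInstance,
    inferInstance, E0.p0 G, E0.isQuotientCoveringMap_p0, inferInstance⟩

end Vale.Agent.P246.Dis.H105
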