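import Vale.Agent.P246.Dis.H105.BlockD
import Vale.Agent.P246.Dis.H87.CAsm
import Vale.Agent.P246.Dis.H302.ExA2

/-! # P246-Dis: the topological half of the disproof (blocks C and D together) -/

open Topology Metric Set Vale.Agent.P246 Vale.Agent.P246.T

namespace Vale.Agent.P246.Dis.H105

/-- If the group `G` has a balanced finite presentation `Pr` for which an element `β` of the kernel
of the second Fox map is part of a basis, and no finite presentation with one more generator than
relators, then `G` does not have the D(2) property. -/
theorem not_d2Property {G : Type} [Group G] (Pr : FinPresentation G)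
    (β : Fin Pr.rels → ZG G) (lam : (Fin Pr.rels → ZG G) →ₗ[ZG G] ZG G) (hβ : fox2 Pr β = 0)
    (hlam : lam β = 1) (hbal : Pr.gens = Pr.rels)
    (core : ∀ P : FinPresentation G, P.gens ≠ P.rels + 1) : ¬ D2Property G := by
  intro hG
  obtain ⟨B, _, _, hcon, _, hfin, hpi, hD, h0, h1, h2, h3, h4⟩ := blockD G Pr β lam hβ hlam
  obtain ⟨x⟩ : Nonempty B := inferInstance
  obtain ⟨e⟩ := hpi x
  rw [hbal] at h1
  obtain ⟨P, hP⟩ := H87.exists_pres_of_cells' x e hD h0 h1 h2 h3 h4 (hG B x ⟨e⟩ hD)
  exact core P hP

/-- The group `GA`, provided that it has no presentation with one more generator than relators. -/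
theorem not_d2Property_GA (core : ∀ P : FinPresentation GA, P.gens ≠ P.rels + 1) :
    ¬ D2Property GA :=
  not_d2Property PrA betaA lamA fox2_betaA lamA_betaA rfl core

end Vale.Agent.P246.Dis.H105
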